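import Vale.Agent.P033.Basic

namespace Vale.Agent.P033
open Finset Polynomial

/-- The group-ring identity evaluated at complex roots of unity. -/
def TP (n : ℕ) (a : ℕ → ℤ) (N : ℤ) : Prop :=
  ∀ x : ℂ, x ^ n = 1 → ev n a x * ev n a x⁻¹ = N

lemma parseval {n : ℕ} (hn : n ≠ 0) {a : ℕ → ℤ} {N : ℤ} (h : TP n a N) :
    ∑ j ∈ range n, a j ^ 2 = N := by
  obtain ⟨ζ, hζ⟩ : ∃ ζ : ℂ, IsPrimitiveRoot ζ n := ⟨_, Complex.isPrimitiveRoot_exp n hn⟩
  have hζ0 : ζ ≠ 0 := hζ.ne_zero hn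
  have h1 : ∑ i ∈ range n, ev n a (ζ ^ i) * ev n a (ζ ^ i)⁻¹ = n * N := by
    rw [Finset.sum_congr rfl fun i _ => h (ζ ^ i) (by rw [← pow_mul, mul_comm, pow_mul,
      hζ.pow_eq_one, one_pow])]
    simp
  have h2 : ∀ i, ev n a (ζ ^ i) * ev n a (ζ ^ i)⁻¹ =
      ∑ j ∈ range n, ∑ l ∈ range n, (a j * a l : ℂ) * (ζ ^ j / ζ ^ l) ^ i := by
    intro i
    unfold ev
    rw [Finset.sum_mul_sum]
    refine Finset.sum_congr rfl fun j _ => Finset.sum_congr rfl fun l _ => ?_
    rw [div_pow, ← pow_mul, ← pow_mul, ← pow_mul, inv_pow, ← pow_mul, mul_comm i j, mul_comm i l]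
    ring
  simp_rw [h2] at h1
  rw [Finset.sum_comm] at h1
  have h3 : ∀ j ∈ range n, ∑ i ∈ range n, ∑ l ∈ range n, (a j * a l : ℂ) * (ζ ^ j / ζ ^ l) ^ i =
      n * ((a j ^ 2 : ℤ) : ℂ) := by
    intro j hj
    rw [Finset.sum_comm, Finset.sum_eq_single j]
    · simp [div_self (pow_ne_zero j hζ0), sq]
    · intro l hl hlj
      rw [← Finset.mul_sum, geom_zero, mul_zero]
      · rw [div_pow, ← pow_mul, ← pow_mul, mul_comm j, mul_comm l, pow_mul, pow_mul,
          hζ.pow_eq_one]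
        simp
      · intro h
        rw [div_eq_one_iff_eq (pow_ne_zero l hζ0)] at h
        exact hlj (hζ.pow_inj (Finset.mem_range.mp hj) (Finset.mem_range.mp hl) h).symm
    · intro h
      exact absurd hj h
  rw [Finset.sum_congr rfl h3, ← Finset.mul_sum, ← Int.cast_sum] at h1
  exact_mod_cast mul_left_cancel₀ (Nat.cast_ne_zero.mpr hn : (n : ℂ) ≠ 0) h1

section Val
variable {K : Type*} [Field K] [CharZero K] {Γ : Type*} [LinearOrderedCommGroupWithZero Γ]
  (v : Valuation K Γ)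

omit [CharZero K] in
lemma ramified (hv : v 2 < 1) {k : ℕ} {ζ : K} (hζ : ζ ^ (2 ^ k) = -1) :
    v (ζ - 1) < 1 ∧ v (ζ - 1) ^ (2 ^ k) = v 2 := by
  have hvζ : v ζ = 1 := v_root v (n := 2 ^ k * 2) (by positivity) (by rw [pow_mul, hζ]; simp)
  let O := v.integer
  let w : O := ⟨ζ - 1, v.map_sub_le hvζ.le (by simp)⟩
  obtain ⟨r, hr⟩ := exists_add_pow_prime_pow_eq Nat.prime_two (1 : O) w k
  have h1 : (ζ - 1) ^ (2 ^ k) = -2 * (1 + (ζ - 1) * (r : K)) := by
    have := congrArg O.subtype hr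
    simp only [map_add, map_mul, map_pow, map_natCast, map_one, Subring.coe_subtype, w] at this
    rw [add_sub_cancel, hζ] at this
    push_cast at this
    linear_combination -this
  have h2 : v (ζ - 1) ^ (2 ^ k) = v 2 * v (1 + (ζ - 1) * (r : K)) := by
    rw [← map_pow, h1, map_mul, Valuation.map_neg]
  have h3 : v ((ζ - 1) * (r : K)) ≤ v (ζ - 1) := by
    rw [map_mul]
    exact mul_le_of_le_one_right' r.2
  have h4 : v (ζ - 1) < 1 := by
    have h5 : v (ζ - 1) ^ (2 ^ k) < 1 := by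
      rw [h2]
      exact (mul_le_of_le_one_right' (v.map_add_le (by simp) (h3.trans w.2))).trans_lt hv
    by_contra h
    exact absurd (one_le_pow_of_one_le' (not_lt.mp h) _) (not_le.mpr h5)
  exact ⟨h4, by rw [h2, v.map_one_add_of_lt (h3.trans_lt h4), mul_one]⟩

lemma key_two (hv : v 2 < 1) {k : ℕ} {ζ : K} (hζ : ζ ^ (2 ^ k) = -1) (w : ℕ → ℤ)
    (hw : ∃ j < 2 ^ k, Odd (w j)) : v 2 < v (ev (2 ^ k) w ζ) := by
  classical
  obtain ⟨h1, h2⟩ := ramified v hv hζ
  have h20 : v 2 ≠ 0 := (v.ne_zero_iff).mpr two_ne_zero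
  have hπ : 0 < v (ζ - 1) := by
    rw [zero_lt_iff]
    intro h
    rw [h, zero_pow (by positivity)] at h2
    exact h20 h2.symm
  let W : ℤ[X] := ∑ j ∈ range (2 ^ k), C (w j) * X ^ j
  have hWd : W.natDegree < 2 ^ k := by
    have : W.natDegree ≤ 2 ^ k - 1 := by
      refine Polynomial.natDegree_sum_le_of_forall_le _ _ fun j hj => ?_
      have := Finset.mem_range.mp hj
      exact (Polynomial.natDegree_C_mul_X_pow_le _ _).trans (by omega)
    have : 0 < 2 ^ k := by positivity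
    omega
  let T : ℤ[X] := taylor 1 W
  have hTd : T.natDegree < 2 ^ k := by simpa [T] using hWd
  have hev : ev (2 ^ k) w ζ = ∑ i ∈ range (2 ^ k), (T.coeff i : K) * (ζ - 1) ^ i := by
    have e1 : aeval (ζ - 1) T = ev (2 ^ k) w ζ := by
      simp [T, taylor_apply, W, ev, map_sum]
    rw [← e1, Polynomial.aeval_eq_sum_range' hTd]
    simp
  have hex : ∃ i, Odd (T.coeff i) := by
    by_contra hcon
    push Not at hcon
    obtain ⟨j, hj, hodd⟩ := hw
    have e1 : C (2 : ℤ) ∣ T := (Polynomial.C_dvd_iff_dvd_coeff _ _).mpr fun i =>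
      even_iff_two_dvd.mp (Int.not_odd_iff_even.mp (hcon i))
    obtain ⟨S, hS⟩ := e1
    have e2 : W = C 2 * taylor (-1) S := by
      have : taylor (-1) T = W := by simp [T, taylor_taylor]
      rw [← this, hS, taylor_mul, taylor_C]
    have e3 : W.coeff j = w j := by
      simp only [W, Polynomial.finsetSum_coeff, Polynomial.coeff_C_mul_X_pow]
      rw [Finset.sum_eq_single j]
      · simp
      · intro l _ hl
        simp [hl.symm]
      · intro h
        exact absurd (Finset.mem_range.mpr hj) h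
    rw [e2, Polynomial.coeff_C_mul] at e3
    exact Int.not_even_iff_odd.mpr hodd (e3 ▸ even_two_mul _)
  let l := Nat.find hex
  have hl : Odd (T.coeff l) := Nat.find_spec hex
  have hlt : l < 2 ^ k := by
    refine lt_of_le_of_lt (Polynomial.le_natDegree_of_ne_zero fun h => ?_) hTd
    rw [h] at hl
    exact absurd hl (by decide)
  have hlv : v (T.coeff l : K) = 1 := by
    obtain ⟨c, hc⟩ := hl
    have : (T.coeff l : K) = 1 + ((2 * c : ℤ) : K) := by rw [hc]; push_cast; ring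
    rw [this]
    exact v.map_one_add_of_lt ((v_even v (even_two_mul c)).trans_lt hv)
  have h3 : v 2 < v (ζ - 1) ^ l := by
    rw [← h2]
    exact pow_lt_pow_right_of_lt_one₀ hπ h1 hlt
  have h4 : v ((T.coeff l : K) * (ζ - 1) ^ l) = v (ζ - 1) ^ l := by
    rw [map_mul, hlv, one_mul, map_pow]
  rw [hev, ← Finset.add_sum_erase _ _ (Finset.mem_range.mpr hlt), v.map_add_eq_of_lt_left, h4]
  · exact h3
  · rw [h4]
    refine v.map_sum_lt (pow_ne_zero _ hπ.ne') fun i hi => ?_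
    rw [map_mul, map_pow]
    rcases lt_or_gt_of_ne (Finset.ne_of_mem_erase hi) with h | h
    · have := Int.not_odd_iff_even.mp (Nat.find_min hex h)
      exact ((mul_le_of_le_one_right' (pow_le_one' h1.le i)).trans (v_even v this)).trans_lt h3
    · exact (mul_le_of_le_one_left' (v_int v _)).trans_lt (pow_lt_pow_right_of_lt_one₀ hπ h1 h)

end Val

lemma ev_two {R : Type*} [CommRing R] (M : ℕ) (a : ℕ → ℤ) (x : R) :
    ev (2 * M) a x = ∑ j ∈ range M, ((a j : R) + a (M + j) * x ^ M) * x ^ j := by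
  rw [ev_split]
  simp [Finset.sum_range_succ]

lemma half {k : ℕ} {N : ℤ} {a : ℕ → ℤ} (ha : ∀ j, Odd (a j)) (h : TP (2 ^ (k + 1)) a (16 * N)) :
    ∃ b : ℕ → ℤ, (∀ j, Odd (b j)) ∧ TP (2 ^ k) b (4 * N) := by
  classical
  obtain ⟨V, hV⟩ := exists_val ℂ Nat.prime_two
  have hV' : V.valuation 2 < 1 := by simpa using hV
  obtain ⟨ζ, hζ⟩ := IsAlgClosed.exists_pow_nat_eq (-1 : ℂ) (n := 2 ^ k) (by positivity)
  have hw : ∀ j, ∃ c, a j - a (2 ^ k + j) = 2 * c := fun j =>
    even_iff_two_dvd.mp ((ha j).sub_odd (ha _))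
  choose w hw using hw
  have e1 : ∀ x : ℂ, x ^ (2 ^ k) = -1 → ev (2 ^ (k + 1)) a x = 2 * ev (2 ^ k) w x := by
    intro x hx
    rw [pow_succ', ev_two, hx, ev, Finset.mul_sum]
    refine Finset.sum_congr rfl fun j _ => ?_
    have : (a j : ℂ) - a (2 ^ k + j) = 2 * w j := by exact_mod_cast hw j
    linear_combination x ^ j * this
  have hζ' : ζ⁻¹ ^ (2 ^ k) = -1 := by rw [inv_pow, hζ]; simp
  have hev : ∀ j < 2 ^ k, Even (w j) := by
    by_contra hcon
    push Not at hcon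
    simp only [Int.not_even_iff_odd] at hcon
    have h1 := key_two _ hV' hζ w hcon
    have h2 := key_two _ hV' hζ' w hcon
    have h3 := h ζ (by rw [pow_succ, pow_mul, hζ]; simp)
    rw [e1 _ hζ, e1 _ hζ'] at h3
    have h4 : ev (2 ^ k) w ζ * ev (2 ^ k) w ζ⁻¹ = 2 * 2 * (N : ℂ) := by
      push_cast at h3
      linear_combination h3 / 4
    have h5 := mul_lt_mul'' h1 h2 zero_le zero_le
    rw [← map_mul, ← map_mul, h4, map_mul V.valuation (2 * 2)] at h5
    exact absurd (mul_le_of_le_one_right' (v_int _ N)) (not_le.mpr h5)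
  refine ⟨fun j => if j < 2 ^ k then a j - w j else 1, fun j => ?_, fun x hx => ?_⟩
  · beta_reduce
    split_ifs with hj
    · exact (ha j).sub_even (hev j hj)
    · exact odd_one
  · have e2 : ∀ x : ℂ, x ^ (2 ^ k) = 1 → ev (2 ^ (k + 1)) a x =
        2 * ev (2 ^ k) (fun j => if j < 2 ^ k then a j - w j else 1) x := by
      intro x hx
      rw [pow_succ', ev_two, hx, ev, Finset.mul_sum]
      refine Finset.sum_congr rfl fun j hj => ?_
      have : (a j : ℂ) - a (2 ^ k + j) = 2 * w j := by exact_mod_cast hw j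
      rw [if_pos (Finset.mem_range.mp hj)]
      push_cast
      linear_combination -x ^ j * this
    have h3 := h x (by rw [pow_succ, pow_mul, hx]; simp)
    rw [e2 _ hx, e2 _ (by rw [inv_pow, hx]; simp)] at h3
    push_cast at h3 ⊢
    linear_combination h3 / 4

lemma halves {N : ℤ} (r : ℕ) : ∀ (k : ℕ) (a : ℕ → ℤ), (∀ j, Odd (a j)) →
    TP (2 ^ (k + r)) a (4 ^ (r + 1) * N) → ∃ b : ℕ → ℤ, (∀ j, Odd (b j)) ∧ TP (2 ^ k) b (4 * N) := by
  induction r with
  | zero => intro k a ha h; exact ⟨a, ha, by simpa using h⟩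
  | succ r ih =>
    intro k a ha h
    obtain ⟨b, hb, hb'⟩ := half (k := k + r) (N := 4 ^ r * N) ha (by
      rw [add_assoc]
      convert h using 1
      ring)
    exact ih k b hb (by convert hb' using 1; ring)

lemma turyn {s u : ℕ} (hu : Odd u) {a : ℕ → ℤ} (ha : ∀ j, Odd (a j))
    (h : RP (4 ^ s * u ^ 2) a) : s ≤ 1 := by
  by_contra hs
  obtain ⟨r, rfl⟩ : ∃ r, s = r + 2 := ⟨s - 2, by omega⟩
  let b : ℕ → ℤ := fun j => ∑ i ∈ range (u ^ 2), a (i * 4 ^ (r + 2) + j)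
  have hb : ∀ j, Odd (b j) := by
    intro j
    have h1 : Even (∑ i ∈ range (u ^ 2), (a (i * 4 ^ (r + 2) + j) - 1)) :=
      Finset.even_sum _ fun i _ => (ha _).sub_odd odd_one
    rw [Finset.sum_sub_distrib] at h1
    have h2 : Odd (∑ i ∈ range (u ^ 2), (1 : ℤ)) := by
      simpa using (hu.pow (n := 2)).natCast (R := ℤ)
    have := h1.add_odd h2
    rwa [sub_add_cancel] at this
  have e4 : 2 ^ ((r + 3) + (r + 1)) = 4 ^ (r + 2) := by
    rw [show (4 : ℕ) = 2 ^ 2 by norm_num, ← pow_mul]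
    congr 1
    ring
  have hT : TP (2 ^ ((r + 3) + (r + 1))) b (4 ^ (r + 1 + 1) * (u : ℤ) ^ 2) := by
    rw [e4]
    intro x hx
    have e1 : ∀ x : ℂ, x ^ (4 ^ (r + 2)) = 1 →
        ev (4 ^ (r + 2) * u ^ 2) a x = ev (4 ^ (r + 2)) b x := by
      intro x hx
      rw [mul_comm, ev_split, hx]
      simp [ev, b]
    have hx0 : x ≠ 0 := by
      rintro rfl
      rw [zero_pow (by positivity)] at hx
      exact zero_ne_one hx
    have := h ℂ x x⁻¹ (by rw [pow_mul, hx, one_pow]) (mul_inv_cancel₀ hx0)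
    rw [e1 _ hx, e1 _ (by rw [inv_pow, hx]; simp)] at this
    rw [this]
    push_cast
    ring
  obtain ⟨c, hc, hc'⟩ := halves (r + 1) (r + 3) b hb hT
  have h1 := parseval (by positivity) hc'
  have h2 : (8 : ℤ) ∣ ∑ j ∈ range (2 ^ (r + 3)), (c j ^ 2 - 1) :=
    Finset.dvd_sum fun j _ => Int.eight_dvd_sq_sub_one_of_odd (hc j)
  rw [Finset.sum_sub_distrib, h1] at h2
  simp only [Finset.sum_const, Finset.card_range, nsmul_eq_mul, mul_one] at h2
  obtain ⟨t, ht⟩ := hu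
  have h3 : (4 : ℤ) * (u : ℤ) ^ 2 - ((2 ^ (r + 3) : ℕ) : ℤ) =
      4 + 8 * (2 * t ^ 2 + 2 * t - 2 ^ r) := by
    rw [ht]
    push_cast
    ring
  rw [h3] at h2
  omega

end Vale.Agent.P033
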