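import Vale.Agent.P033.Local
import Vale.Agent.P033.Turyn

namespace Vale.Agent.P033
open Finset

/-- Alternating product over all subsets. -/
noncomputable def alt {K : Type*} [Field K] (G : K → K) (z : ℕ → K) (s : Finset ℕ) : K :=
  ∏ S ∈ s.powerset, G (∏ p ∈ S, z p) ^ ((-1 : ℤ) ^ S.card)

section Val
variable {K : Type*} [Field K] {Γ : Type*} [LinearOrderedCommGroupWithZero Γ]
  (v : Valuation K Γ)

lemma u_val {x : K} (h : v (x - 1) < 1) : v x = 1 := by
  have := v.map_one_add_of_lt h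
  rwa [add_sub_cancel] at this

lemma u_mul {x y : K} (hx : v (x - 1) < 1) (hy : v (y - 1) < 1) : v (x * y - 1) < 1 := by
  have : x * y - 1 = (x - 1) * y + (y - 1) := by ring
  rw [this]
  refine v.map_add_lt ?_ hy
  rwa [map_mul, u_val v hy, mul_one]

lemma u_inv {x : K} (hx : v (x - 1) < 1) : v (x⁻¹ - 1) < 1 := by
  have h1 := u_val v hx
  have h0 : x ≠ 0 := (v.ne_zero_iff).mp (h1 ▸ one_ne_zero)
  have : x⁻¹ - 1 = -(x⁻¹ * (x - 1)) := by field_simp; ring
  rwa [this, Valuation.map_neg, map_mul, map_inv₀, h1, inv_one, one_mul]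

lemma u_sign {x : K} (hx : v (x - 1) < 1) (k : ℕ) : v (x ^ ((-1 : ℤ) ^ k) - 1) < 1 := by
  rcases neg_one_pow_eq_or ℤ k with h | h <;> rw [h]
  · simpa using hx
  · simpa using u_inv v hx

lemma u_div {x y : K} (h : v (x - y) < v y) : v (x / y - 1) < 1 := by
  have h0 : v y ≠ 0 := (zero_le.trans_lt h).ne'
  have hy : y ≠ 0 := (v.ne_zero_iff).mp h0
  have : x / y - 1 = (x - y) / y := by field_simp
  rw [this, map_div₀]
  exact (div_lt_one₀ (zero_lt_iff.mpr h0)).mpr h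

lemma alt_cong {G : K → K} {z : ℕ → K} {s : Finset ℕ} {p : ℕ} (hp : p ∈ s)
    (h : ∀ S ⊆ s, v (G (∏ q ∈ S, z q) / G (z p * ∏ q ∈ S, z q) - 1) < 1) :
    v (alt G z s - 1) < 1 := by
  have hp' : p ∉ s.erase p := Finset.notMem_erase p s
  rw [alt, ← Finset.insert_erase hp, Finset.prod_powerset_insert hp', ← Finset.prod_mul_distrib]
  refine Finset.prod_induction _ (fun x => v (x - 1) < 1) (fun a b => u_mul v) (by simp) ?_
  intro S hS
  have hS' := Finset.mem_powerset.mp hS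
  have hpS : p ∉ S := fun h => hp' (hS' h)
  rw [Finset.prod_insert hpS, Finset.card_insert_of_notMem hpS, pow_succ, mul_neg_one, zpow_neg,
    ← div_eq_mul_inv, ← div_zpow]
  exact u_sign v (h S (hS'.trans (Finset.erase_subset p s))) _

lemma alt_val {G : K → K} {z : ℕ → K} {s : Finset ℕ}
    (h : ∀ S ⊆ s, v (G (∏ q ∈ S, z q)) = 1) : v (alt G z s) = 1 := by
  rw [alt, map_prod]
  refine Finset.prod_eq_one fun S hS => ?_
  rw [map_zpow₀, h S (Finset.mem_powerset.mp hS), one_zpow]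

/-- First-order expansion `x = 1 + a δ` modulo smaller terms. -/
def Q (a x δ : K) : Prop := v δ ≤ 1 ∧ v (x - 1 - a * δ) < v a

lemma q_sub {a x δ : K} (ha : v a < 1) (h : Q v a x δ) : v (x - 1) < 1 := by
  have : x - 1 = (x - 1 - a * δ) + a * δ := by ring
  rw [this]
  refine v.map_add_lt (h.2.trans ha) ?_
  rw [map_mul]
  exact (mul_le_of_le_one_right' h.1).trans_lt ha

lemma q_aux {a x δ : K} (ha0 : v a ≠ 0) (hδ : v δ ≤ 1) (hx : v (x - 1) < 1) :
    v (a * δ * (x - 1)) < v a := by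
  rw [mul_right_comm, map_mul, map_mul]
  exact (mul_le_of_le_one_right' hδ).trans_lt (mul_lt_of_lt_one_right (zero_lt_iff.mpr ha0) hx)

lemma q_mul {a x δ y ε : K} (ha : v a < 1) (h : Q v a x δ) (h' : Q v a y ε) :
    Q v a (x * y) (δ + ε) := by
  have ha0 : v a ≠ 0 := (zero_le.trans_lt h.2).ne'
  have hy := q_sub v ha h'
  refine ⟨v.map_add_le h.1 h'.1, ?_⟩
  have : x * y - 1 - a * (δ + ε) =
      (x - 1 - a * δ) * y + (y - 1 - a * ε) + a * δ * (y - 1) := by ring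
  rw [this]
  refine v.map_add_lt (v.map_add_lt ?_ h'.2) (q_aux v ha0 h.1 hy)
  rw [map_mul, u_val v hy, mul_one]
  exact h.2

lemma q_inv {a x δ : K} (ha : v a < 1) (h : Q v a x δ) : Q v a x⁻¹ (-δ) := by
  have ha0 : v a ≠ 0 := (zero_le.trans_lt h.2).ne'
  have hx := q_sub v ha h
  have h1 := u_val v hx
  have h0 : x ≠ 0 := (v.ne_zero_iff).mp (h1 ▸ one_ne_zero)
  refine ⟨by simpa using h.1, ?_⟩
  have : x⁻¹ - 1 - a * -δ = x⁻¹ * (a * δ * (x - 1) - (x - 1 - a * δ)) := by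
    field_simp
    ring
  rw [this, map_mul, map_inv₀, h1, inv_one, one_mul]
  exact v.map_sub_lt (q_aux v ha0 h.1 hx) h.2

lemma q_sign {a x δ : K} (ha : v a < 1) (h : Q v a x δ) (k : ℕ) :
    Q v a (x ^ ((-1 : ℤ) ^ k)) ((-1) ^ k * δ) := by
  rcases Nat.even_or_odd k with hk | hk
  · rw [hk.neg_one_pow, hk.neg_one_pow]
    simpa using h
  · rw [hk.neg_one_pow, hk.neg_one_pow]
    simpa using q_inv v ha h

lemma q_prod {ι : Type*} {a : K} (ha : v a < 1) (ha0 : a ≠ 0) (T : Finset ι) (x δ : ι → K)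
    (h : ∀ i ∈ T, Q v a (x i) (δ i)) : Q v a (∏ i ∈ T, x i) (∑ i ∈ T, δ i) := by
  classical
  induction T using Finset.induction_on with
  | empty => exact ⟨by simp, by simpa [zero_lt_iff] using ha0⟩
  | insert i T hi ih =>
    rw [Finset.prod_insert hi, Finset.sum_insert hi]
    exact q_mul v ha (h i (Finset.mem_insert_self _ _))
      (ih fun j hj => h j (Finset.mem_insert_of_mem hj))

lemma q_alt {a : K} (ha : v a < 1) (ha0 : a ≠ 0) {G : K → K} {z : ℕ → K} {s : Finset ℕ}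
    (δ : Finset ℕ → K) (h : ∀ S ⊆ s, Q v a (G (∏ q ∈ S, z q)) (δ S)) :
    Q v a (alt G z s) (∑ S ∈ s.powerset, (-1) ^ S.card * δ S) :=
  q_prod v ha ha0 _ _ _ fun S hS => q_sign v ha (h S (Finset.mem_powerset.mp hS)) _

lemma q_one {a δ : K} (h : Q v a 1 δ) : v δ < 1 := by
  have h2 := h.2
  rw [sub_self, zero_sub, Valuation.map_neg, map_mul] at h2
  by_contra h1
  exact absurd (le_mul_of_one_le_right' (not_lt.mp h1)) (not_le.mpr h2)

lemma v_of_primes {u : ℕ} (hu : u ≠ 0) (h : ∀ p ∈ u.primeFactors, ¬ v (p : K) < 1) :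
    v (u : K) = 1 := by
  rw [← Nat.prod_factorization_pow_eq_self hu, Finsupp.prod]
  push_cast
  rw [map_prod]
  refine Finset.prod_eq_one fun p hp => ?_
  rw [map_pow, le_antisymm (v_nat v p) (not_lt.mp (h p hp)), one_pow]

end Val

lemma rp_inv {K : Type} [Field K] {n : ℕ} (hn : n ≠ 0) {a : ℕ → ℤ} (hR : RP n a) {x : K}
    (hx : x ^ n = 1) : ev n a x * ev n a x⁻¹ = n := by
  refine hR K x x⁻¹ hx (mul_inv_cancel₀ ?_)
  rintro rfl
  rw [zero_pow hn] at hx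
  exact zero_ne_one hx

lemma ev_ne_zero {K : Type} [Field K] [CharZero K] {n : ℕ} (hn : n ≠ 0) {a : ℕ → ℤ} (hR : RP n a)
    {x : K} (hx : x ^ n = 1) : ev n a x ≠ 0 := by
  intro h
  have := rp_inv hn hR hx
  rw [h, zero_mul] at this
  exact hn (by exact_mod_cast this.symm)

lemma norm_ev {n : ℕ} (hn : n ≠ 0) {a : ℕ → ℤ} (hR : RP n a) {x : ℂ} (hx : x ^ n = 1) :
    ‖ev n a x‖ = Real.sqrt n := by
  have h1 := rp_inv hn hR hx
  rw [Complex.inv_eq_conj (Complex.norm_eq_one_of_pow_eq_one hx hn), ← map_ev, Complex.mul_conj,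
    Complex.normSq_eq_norm_sq] at h1
  have h2 : ‖ev n a x‖ ^ 2 = n := by exact_mod_cast h1
  rw [← h2, Real.sqrt_sq (norm_nonneg _)]

lemma v_ev_eq {K : Type} [Field K] [CharZero K] {Γ : Type*} [LinearOrderedCommGroupWithZero Γ]
    (v : Valuation K Γ) {u : ℕ} (hu : u ≠ 0) (hvu : v (u : K) = 1) {a : ℕ → ℤ}
    (ha : ∀ j, Odd (a j)) (hR : RP (4 * u ^ 2) a) {x : K} (hx : x ^ (4 * u ^ 2) = 1) :
    v (ev (4 * u ^ 2) a x) = v 2 := by
  have hn : 4 * u ^ 2 ≠ 0 := by positivity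
  have he : Even (4 * u ^ 2) := ⟨2 * u ^ 2, by ring⟩
  have h1 := v_ev_le v hn he a ha hx
  have h2 := v_ev_le v hn he a ha (x := x⁻¹) (by rw [inv_pow, hx, inv_one])
  have h3 := congrArg v (rp_inv hn hR hx)
  have h4 : ((4 * u ^ 2 : ℕ) : K) = 2 * 2 * u ^ 2 := by push_cast; ring
  rw [h4, map_mul, map_mul, map_mul, map_pow, hvu, one_pow, mul_one] at h3
  refine le_antisymm h1 (not_lt.mp fun h => ?_)
  have h20 : 0 < v 2 := zero_lt_iff.mpr ((v.ne_zero_iff).mpr two_ne_zero)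
  exact absurd h3 (mul_lt_mul_of_lt_of_le_of_nonneg_of_pos h h2 zero_le h20).ne

end Vale.Agent.P033
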