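import Mathlib

namespace Vale.Agent.P033
open Finset

/-- Evaluation of the polynomial with integer coefficients `a 0, …, a (n-1)`. -/
def ev {R : Type*} [CommRing R] (n : ℕ) (a : ℕ → ℤ) (x : R) : R :=
  ∑ j ∈ range n, (a j : R) * x ^ j

/-- The group-ring identity, evaluated in every commutative ring. -/
def RP (n : ℕ) (a : ℕ → ℤ) : Prop :=
  ∀ (R : Type) [CommRing R] (x y : R), x ^ n = 1 → x * y = 1 → ev n a x * ev n a y = n

lemma ev_split {R : Type*} [CommRing R] (d M : ℕ) (a : ℕ → ℤ) (x : R) :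
    ev (d * M) a x = ∑ j ∈ range M, (∑ i ∈ range d, (a (i * M + j) : R) * (x ^ M) ^ i) * x ^ j := by
  induction d with
  | zero => simp [ev]
  | succ d ih =>
    have : ev ((d + 1) * M) a x = ev (d * M) a x +
        ∑ j ∈ range M, (a (d * M + j) : R) * x ^ (d * M + j) := by
      unfold ev
      rw [add_mul, one_mul, Finset.sum_range_add]
    rw [this, ih, ← Finset.sum_add_distrib]
    refine Finset.sum_congr rfl fun j _ => ?_
    rw [Finset.sum_range_succ, add_mul, pow_add, ← pow_mul, mul_comm M d, mul_assoc]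

lemma map_ev {R S : Type*} [CommRing R] [CommRing S] (f : R →+* S) (n : ℕ) (a : ℕ → ℤ) (x : R) :
    f (ev n a x) = ev n a (f x) := by
  simp [ev, map_sum]

lemma geom_zero {K : Type*} [Field K] {x : K} {n : ℕ} (h : x ^ n = 1) (h1 : x ≠ 1) :
    ∑ i ∈ range n, x ^ i = 0 := by
  have := geom_sum_mul x n
  rw [h, sub_self] at this
  exact (mul_eq_zero.mp this).resolve_right (sub_ne_zero.mpr h1)

lemma rp_of_auto (n : ℕ) [NeZero n] (h : Fin n → ℤ)
    (hc : ∀ t : Fin n, ∑ l, h (l + t) * h l = if t = 0 then (n : ℤ) else 0) :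
    RP n (fun j => h (Fin.ofNat n j)) := by
  intro R _ x y hx hxy
  have e1 : ∀ z : R, ev n (fun j => h (Fin.ofNat n j)) z = ∑ j : Fin n, (h j : R) * z ^ (j : ℕ) := by
    intro z
    unfold ev
    rw [Finset.sum_range]
    refine Finset.sum_congr rfl fun j _ => ?_
    have : Fin.ofNat n (j : ℕ) = j := by
      ext
      simp
    simp only [this]
  have e2 : ∀ l t : Fin n, x ^ ((l + t : Fin n) : ℕ) * y ^ (l : ℕ) = x ^ (t : ℕ) := by
    intro l t
    rw [Fin.val_add, ← pow_eq_pow_mod _ hx, pow_add, mul_right_comm, ← mul_pow, hxy, one_pow,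
      one_mul]
  rw [e1, e1, Finset.sum_mul_sum, Finset.sum_comm]
  have e3 : ∀ l : Fin n, ∑ j : Fin n, (h j : R) * x ^ (j : ℕ) * ((h l : R) * y ^ (l : ℕ)) =
      ∑ t : Fin n, ((h (l + t) * h l : ℤ) : R) * x ^ (t : ℕ) := by
    intro l
    rw [← Equiv.sum_comp (Equiv.addLeft l)]
    refine Finset.sum_congr rfl fun t _ => ?_
    simp only [Equiv.coe_addLeft, Int.cast_mul]
    rw [← e2 l t]
    ring
  simp_rw [e3]
  rw [Finset.sum_comm]
  simp_rw [← Finset.sum_mul, ← Int.cast_sum, hc]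
  rw [Finset.sum_eq_single (0 : Fin n)]
  · simp
  · intro t _ ht
    simp [ht]
  · simp

section Val
variable {K : Type*} [Field K] {Γ : Type*} [LinearOrderedCommGroupWithZero Γ]
  (v : Valuation K Γ)

lemma v_nat (m : ℕ) : v (m : K) ≤ 1 := by
  induction m with
  | zero => simp
  | succ m ih =>
    push_cast
    exact v.map_add_le ih (by simp)

lemma v_int (m : ℤ) : v (m : K) ≤ 1 := by
  obtain ⟨k, rfl | rfl⟩ := m.eq_nat_or_neg
  · simpa using v_nat v k
  · simpa using v_nat v k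

lemma v_coprime {p m : ℕ} (hp : v (p : K) < 1) (h : Nat.Coprime p m) : v (m : K) = 1 := by
  refine le_antisymm (v_nat v m) (not_lt.mp fun hm => ?_)
  obtain ⟨a, b, hab⟩ := Nat.isCoprime_iff_coprime.mpr h
  have h1 : (a : K) * p + (b : K) * m = 1 := by exact_mod_cast congrArg (Int.cast : ℤ → K) hab
  have h2 : v ((a : K) * p + (b : K) * m) < 1 := by
    refine v.map_add_lt ?_ ?_
    · rw [map_mul]
      exact (mul_le_of_le_one_left' (v_int v a)).trans_lt hp
    · rw [map_mul]
      exact (mul_le_of_le_one_left' (v_int v b)).trans_lt hm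
  rw [h1, map_one] at h2
  exact lt_irrefl _ h2

lemma v_root {x : K} {n : ℕ} (hn : n ≠ 0) (h : x ^ n = 1) : v x = 1 := by
  have : v x ^ n = 1 := by rw [← map_pow, h, map_one]
  exact (pow_eq_one_iff_left hn).mp this

lemma v_even {m : ℤ} (h : Even m) : v (m : K) ≤ v 2 := by
  obtain ⟨k, rfl⟩ := h
  have : ((k + k : ℤ) : K) = 2 * k := by push_cast; ring
  rw [this, map_mul]
  exact mul_le_of_le_one_right' (v_int v k)

/-- a sum with odd coefficients is congruent to the geometric sum modulo two -/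
lemma v_sub_geom (n : ℕ) (a : ℕ → ℤ) (ha : ∀ j, Odd (a j)) {x : K} (hx : v x ≤ 1) :
    v (∑ j ∈ range n, (a j : K) * x ^ j - ∑ j ∈ range n, x ^ j) ≤ v 2 := by
  rw [← Finset.sum_sub_distrib]
  refine v.map_sum_le fun j _ => ?_
  have : (a j : K) * x ^ j - x ^ j = ((a j - 1 : ℤ) : K) * x ^ j := by push_cast; ring
  rw [this, map_mul, map_pow]
  exact (mul_le_of_le_one_right' (pow_le_one' hx j)).trans (v_even v ((ha j).sub_odd odd_one))

lemma v_ev_le_of_ne {n : ℕ} (hn : n ≠ 0) (a : ℕ → ℤ) (ha : ∀ j, Odd (a j)) {x : K}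
    (hx : x ^ n = 1) (h1 : x ≠ 1) : v (ev n a x) ≤ v 2 := by
  have := v_sub_geom v n a ha (v_root v hn hx).le
  rwa [geom_zero hx h1, sub_zero] at this

lemma v_ev_le {n : ℕ} (hn : n ≠ 0) (he : Even n) (a : ℕ → ℤ) (ha : ∀ j, Odd (a j)) {x : K}
    (hx : x ^ n = 1) : v (ev n a x) ≤ v 2 := by
  by_cases h1 : x = 1
  · have h2 := v_sub_geom v n a ha (v_root v hn hx).le
    have h3 : v (∑ j ∈ range n, x ^ j) ≤ v 2 := by
      have := v_even v (m := (n : ℤ)) (by exact_mod_cast he)
      simpa [h1] using this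
    have := v.map_add_le h2 h3
    rwa [sub_add_cancel] at this
  · exact v_ev_le_of_ne v hn a ha hx h1

lemma v_pow_sub_one {x : K} (h : v (x - 1) < 1) (i : ℕ) : v (x ^ i - 1) < 1 := by
  have hx : v x = 1 := by
    have := v.map_one_add_of_lt h
    rwa [add_sub_cancel] at this
  induction i with
  | zero => simp
  | succ i ih =>
    have : x ^ (i + 1) - 1 = (x ^ i - 1) * x + (x - 1) := by ring
    rw [this]
    refine v.map_add_lt ?_ h
    rwa [map_mul, hx, mul_one]

lemma eq_one_of_root {x : K} {N : ℕ} (hx : x ^ N = 1) (hN : v (N : K) = 1)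
    (h : v (x - 1) < 1) : x = 1 := by
  by_contra h1
  have h2 : v (∑ i ∈ range N, (x ^ i - 1)) < 1 :=
    v.map_sum_lt one_ne_zero fun i _ => v_pow_sub_one v h i
  rw [Finset.sum_sub_distrib, geom_zero hx h1] at h2
  simp [hN] at h2

end Val

lemma exists_val (K : Type*) [Field K] [CharZero K] {p : ℕ} (hp : p.Prime) :
    ∃ V : ValuationSubring K, V.valuation (p : K) < 1 := by
  have hI : Ideal.span {(p : (⊥ : Subring K))} ≠ ⊤ := by
    rw [Ne, Ideal.span_singleton_eq_top, isUnit_iff_exists_inv]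
    rintro ⟨⟨b, hb⟩, hb'⟩
    obtain ⟨k, rfl⟩ := Subring.mem_bot.mp hb
    have h1 : (p : K) * k = 1 := by simpa [Subtype.ext_iff] using hb'
    have h2 : (p : ℤ) * k = 1 := by exact_mod_cast h1
    have h3 : (p : ℤ) ∣ 1 := ⟨k, h2.symm⟩
    have h4 : p ∣ 1 := by exact_mod_cast h3
    exact hp.one_lt.ne' (Nat.dvd_one.mp h4)
  obtain ⟨V, -, hV⟩ := Ideal.image_subset_nonunits_valuationSubring _ hI
  refine ⟨V, (V.mem_nonunits_iff).mp (hV ⟨_, Ideal.subset_span rfl, by simp⟩)⟩

lemma integral_of_val {K : Type*} [Field K] {x : K}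
    (h : ∀ V : ValuationSubring K, V.valuation x ≤ 1) : IsIntegral ℤ x := by
  by_contra hx
  have hx' : x ∉ (integralClosure ℤ K).toSubring := hx
  have : IsIntegrallyClosedIn (integralClosure ℤ K).toSubring K :=
    inferInstanceAs (IsIntegrallyClosedIn (integralClosure ℤ K) K)
  obtain ⟨V, -, hV⟩ := Subring.exists_le_valuationSubring_of_isIntegrallyClosedIn hx'
  exact hV ((V.valuation_le_one_iff x).mp (h V))

end Vale.Agent.P033
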