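import Vale.Agent.P033.Basic

namespace Vale.Agent.P033
open Finset Polynomial

section Val
variable {K : Type} [Field K] {Γ : Type*} [LinearOrderedCommGroupWithZero Γ]
  (v : Valuation K Γ)

lemma exists_top (Y : K[X]) (hY : Y ≠ 0) :
    ∃ i₀, v (Y.coeff i₀) ≠ 0 ∧ (∀ i, v (Y.coeff i) ≤ v (Y.coeff i₀)) ∧
      ∀ i, i₀ < i → v (Y.coeff i) < v (Y.coeff i₀) := by
  classical
  have hne : Y.support.Nonempty := Polynomial.support_nonempty.mpr hY
  obtain ⟨i₁, hi₁, hmax⟩ := Finset.exists_max_image Y.support (fun i => v (Y.coeff i)) hne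
  have hall : ∀ i, v (Y.coeff i) ≤ v (Y.coeff i₁) := by
    intro i
    by_cases hi : i ∈ Y.support
    · exact hmax i hi
    · rw [Polynomial.notMem_support_iff.mp hi, map_zero]
      exact zero_le
  have hnz : v (Y.coeff i₁) ≠ 0 := (v.ne_zero_iff).mpr (Polynomial.mem_support_iff.mp hi₁)
  let T := Y.support.filter fun i => v (Y.coeff i) = v (Y.coeff i₁)
  have hT : T.Nonempty := ⟨i₁, by simp [T, Polynomial.mem_support_iff.mp hi₁]⟩
  have h0 : v (Y.coeff (T.max' hT)) = v (Y.coeff i₁) := (Finset.mem_filter.mp (T.max'_mem hT)).2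
  refine ⟨T.max' hT, h0 ▸ hnz, fun i => h0 ▸ hall i, fun i hi => ?_⟩
  rw [h0]
  refine lt_of_le_of_ne (hall i) fun he => ?_
  have hi' : i ∈ T := by
    refine Finset.mem_filter.mpr ⟨Polynomial.mem_support_iff.mpr fun h => hnz ?_, he⟩
    rw [← he, h, map_zero]
  exact absurd (T.le_max' i hi') (not_le.mpr hi)

lemma gauss (Y Z : K[X]) (c : Γ) (hc : c ≠ 0) (h0 : v ((Y * Z).coeff 0) = c)
    (h1 : ∀ i, 0 < i → v ((Y * Z).coeff i) < c) :
    v (Y.eval 1 - Y.eval 0) < v (Y.eval 0) := by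
  have hYZ : Y * Z ≠ 0 := by
    intro h
    rw [h, Polynomial.coeff_zero, map_zero] at h0
    exact hc h0.symm
  obtain ⟨i, hi0, hi1, hi2⟩ := exists_top v Y (left_ne_zero_of_mul hYZ)
  obtain ⟨j, hj0, hj1, hj2⟩ := exists_top v Z (right_ne_zero_of_mul hYZ)
  have hle : c ≤ v (Y.coeff i) * v (Z.coeff j) := by
    rw [← h0, Polynomial.mul_coeff_zero, map_mul]
    exact mul_le_mul' (hi1 0) (hj1 0)
  have heq : v ((Y * Z).coeff (i + j)) = v (Y.coeff i) * v (Z.coeff j) := by
    rw [Polynomial.coeff_mul,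
      ← Finset.add_sum_erase _ _ (show (i, j) ∈ antidiagonal (i + j) by simp), ← map_mul]
    refine v.map_add_eq_of_lt_left ?_
    rw [map_mul]
    refine v.map_sum_lt (mul_ne_zero hi0 hj0) fun q hq => ?_
    obtain ⟨hq1, hq2⟩ := Finset.mem_erase.mp hq
    have hq3 : q.1 + q.2 = i + j := by simpa using hq2
    rw [map_mul]
    by_cases hlt : i < q.1
    · exact mul_lt_mul_of_lt_of_le_of_nonneg_of_pos (hi2 _ hlt) (hj1 _) zero_le
        (zero_lt_iff.mpr hj0)
    · have : j < q.2 := by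
        by_contra h
        apply hq1
        ext <;> simp <;> omega
      exact mul_lt_mul_of_le_of_lt_of_nonneg_of_pos (hi1 _) (hj2 _ this) zero_le
        (zero_lt_iff.mpr hi0)
  have hi : i = 0 := by
    by_contra h
    have := h1 (i + j) (by omega)
    rw [heq] at this
    exact absurd hle (not_le.mpr this)
  subst hi
  rw [← Polynomial.coeff_zero_eq_eval_zero, Polynomial.eval_eq_sum_range, Finset.sum_range_succ']
  simp only [one_pow, mul_one, add_sub_cancel_right]
  exact v.map_sum_lt hi0 fun k _ => hi2 _ (Nat.succ_pos k)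

end Val

lemma rp_dvd {R : Type} [CommRing R] {n : ℕ} (hn : n ≠ 0) {a : ℕ → ℤ} (hR : RP n a) (x c : R)
    (hx : c ∣ x ^ n - 1) : c ∣ ev n a x * ev n a (x ^ (n - 1)) - n := by
  let I : Ideal R := Ideal.span {c}
  have hx' : (Ideal.Quotient.mk I x) ^ n = 1 := by
    rw [← map_pow, ← map_one (Ideal.Quotient.mk I), Ideal.Quotient.eq]
    exact Ideal.mem_span_singleton.mpr hx
  have hxy : Ideal.Quotient.mk I x * Ideal.Quotient.mk I (x ^ (n - 1)) = 1 := by
    rw [map_pow, ← pow_succ', Nat.sub_add_cancel (Nat.pos_of_ne_zero hn), hx']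
  have h4 := hR (R ⧸ I) _ _ hx' hxy
  rw [← map_ev, ← map_ev, ← map_mul, ← map_natCast (Ideal.Quotient.mk I) n,
    Ideal.Quotient.eq] at h4
  exact Ideal.mem_span_singleton.mp h4

lemma pow_pow_cong {R : Type*} [CommRing R] {p : ℕ} (hp : p.Prime) {w : R} (s : R)
    (hw : (p : R) ∣ w ^ (p - 1)) (m : ℕ) :
    (p : R) ^ m * w ∣ (1 + w * s) ^ (p ^ m) - 1 := by
  induction m with
  | zero => simp
  | succ m ih =>
    obtain ⟨t, ht⟩ := ih
    have h1 : (1 + w * s) ^ (p ^ m) = 1 + (p : R) ^ m * w * t := by rw [← ht]; ring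
    obtain ⟨r, hr⟩ := exists_add_pow_prime_eq hp (1 : R) ((p : R) ^ m * w * t)
    obtain ⟨e, he⟩ := hw
    obtain ⟨q, hq⟩ : ∃ q, p = q + 1 := ⟨p - 1, (Nat.succ_pred_eq_of_pos hp.pos).symm⟩
    have he' : w ^ q = (p : R) * e := by rw [← he, hq]; simp
    have h2 : ((p : R) ^ m * w * t) ^ p =
        (p : R) ^ (m + 1) * w * (((p : R) ^ m * t) ^ q * t * e) := by
      calc ((p : R) ^ m * w * t) ^ p = ((p : R) ^ m * w * t) ^ (q + 1) := by rw [← hq]
        _ = (p : R) ^ m * w * t * (((p : R) ^ m * t) ^ q * w ^ q) := by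
          rw [← mul_pow]; ring
        _ = _ := by rw [he']; ring
    rw [pow_succ p m, pow_mul, h1, hr, h2]
    exact ⟨((p : R) ^ m * t) ^ q * t * e + t * r, by ring⟩

section Val
variable {K : Type} [Field K] [CharZero K] {Γ : Type*} [LinearOrderedCommGroupWithZero Γ]
  (v : Valuation K Γ)

/-- The local congruence: twisting by a root of unity of order `p` does not change the value
modulo a place above `p`. -/
lemma local_cong {n p : ℕ} (hn : n ≠ 0) (hp : p.Prime) (hv : v (p : K) < 1) {a : ℕ → ℤ}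
    (hR : RP n a) {η ζ : K} (hη : η ^ n = 1) (hζ : ζ ^ p = 1) :
    v (ev n a (η * ζ) - ev n a η) < v (ev n a η) := by
  have hvη : v η = 1 := v_root v hn hη
  have hvζ : v ζ = 1 := v_root v hp.ne_zero hζ
  let O := v.integer
  let η' : O := ⟨η, hvη.le⟩
  let w : O := ⟨ζ - 1, v.map_sub_le hvζ.le (by simp)⟩
  have hw : (p : O) ∣ w ^ (p - 1) := by
    by_cases h0 : w = 0
    · rw [h0, zero_pow (by have := hp.two_le; omega)]
      exact dvd_zero _
    · obtain ⟨r, hr⟩ := exists_add_pow_prime_eq hp (1 : O) w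
      have h1 : (1 + w) ^ p = 1 := by
        apply Subtype.ext
        simpa [w] using hζ
      refine ⟨-r, mul_left_cancel₀ h0 ?_⟩
      rw [← pow_succ', Nat.sub_add_cancel hp.one_le]
      rw [h1, one_pow] at hr
      linear_combination -hr
  have hvw : v (ζ - 1) < 1 := by
    obtain ⟨e, he⟩ := hw
    have h1 : (ζ - 1) ^ (p - 1) = (p : K) * (e : K) := by
      simpa [w] using congrArg (fun z : O => (z : K)) he
    have h2 : v (ζ - 1) ^ (p - 1) < 1 := by
      rw [← map_pow, h1, map_mul]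
      exact (mul_le_of_le_one_right' e.2).trans_lt hv
    by_contra h
    exact absurd (one_le_pow_of_one_le' (not_lt.mp h) _) (not_le.mpr h2)
  obtain ⟨m, n', hn', hnn⟩ := Nat.exists_eq_pow_mul_and_not_dvd hn p hp.ne_one
  have hvn : v (n : K) = v (p : K) ^ m := by
    rw [hnn]
    push_cast
    rw [map_mul, map_pow, v_coprime v hv ((Nat.Prime.coprime_iff_not_dvd hp).mpr hn'), mul_one]
  let x : O[X] := C η' * (1 + C w * X)
  have hx : (p : O[X]) ^ m * C w ∣ x ^ n - 1 := by
    have h1 : (p : O[X]) ∣ (C w) ^ (p - 1) := by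
      have := map_dvd (C : O →+* O[X]) hw
      simpa using this
    have h3 : η' ^ n = 1 := Subtype.ext (by simpa [η'] using hη)
    have h4 : x ^ n = ((1 + C w * X) ^ (p ^ m)) ^ n' := by
      simp only [x]
      rw [mul_pow, ← map_pow, h3, map_one, one_mul, ← pow_mul, ← hnn]
    rw [h4]
    exact (pow_pow_cong hp X h1 m).trans (sub_one_dvd_pow_sub_one _ _)
  obtain ⟨z, hz⟩ := rp_dvd hn hR x _ hx
  have hz' : (ev n a x).map O.subtype * (ev n a (x ^ (n - 1))).map O.subtype =
      C (n : K) + C ((p : K) ^ m * (ζ - 1)) * z.map O.subtype := by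
    rw [← Polynomial.map_mul, sub_eq_iff_eq_add'.mp hz]
    simp [w]
  have hp0 : v (p : K) ^ m ≠ 0 :=
    pow_ne_zero _ ((v.ne_zero_iff).mpr (Nat.cast_ne_zero.mpr hp.ne_zero))
  have hlt : ∀ i, v ((p : K) ^ m * (ζ - 1) * (z.map O.subtype).coeff i) < v (p : K) ^ m := by
    intro i
    rw [map_mul, map_mul, map_pow, Polynomial.coeff_map]
    refine (mul_le_of_le_one_right' (z.coeff i).2).trans_lt ?_
    exact mul_lt_of_lt_one_right (zero_lt_iff.mpr hp0) hvw
  have h5 := gauss v ((ev n a x).map O.subtype) ((ev n a (x ^ (n - 1))).map O.subtype) _ hp0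
    (by
      rw [hz', Polynomial.coeff_add, Polynomial.coeff_C_zero, Polynomial.coeff_C_mul,
        v.map_add_eq_of_lt_left (hvn ▸ hlt 0), hvn])
    (by
      intro i hi
      rw [hz', Polynomial.coeff_add, Polynomial.coeff_C_mul, Polynomial.coeff_C,
        if_neg hi.ne', zero_add]
      exact hlt i)
  have h6 : ∀ t : K, ((ev n a x).map O.subtype).eval t = ev n a (η * (1 + (ζ - 1) * t)) := by
    intro t
    rw [Polynomial.eval_map]
    have := map_ev (Polynomial.eval₂RingHom O.subtype t) n a x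
    rw [Polynomial.coe_eval₂RingHom] at this
    rw [this]
    simp [x, η', w]
  rw [h6, h6] at h5
  simpa using h5

end Val

end Vale.Agent.P033
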