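import Vale.Agent.P033.Alt

namespace Vale.Agent.P033
open Finset

/-- The ratio of the value at `θ ξ` and the value at `ξ`. -/
noncomputable def ratio {K : Type*} [Field K] (n : ℕ) (a : ℕ → ℤ) (θ ξ : K) : K :=
  ev n a (θ * ξ) / ev n a ξ

section
variable {K : Type} [Field K] [CharZero K] {Γ : Type*} [LinearOrderedCommGroupWithZero Γ]

omit [CharZero K] in
lemma prod_root {n : ℕ} {z : ℕ → K} {s : Finset ℕ} (hz : ∀ p ∈ s, z p ^ n = 1) {S : Finset ℕ}
    (hS : S ⊆ s) : (∏ q ∈ S, z q) ^ n = 1 := by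
  rw [← Finset.prod_pow]
  exact Finset.prod_eq_one fun q hq => hz q (hS hq)

lemma alt_ratio_cong (v : Valuation K Γ) {n : ℕ} (hn : n ≠ 0) {a : ℕ → ℤ} (hR : RP n a) {θ : K}
    (hθ : θ ^ n = 1) {z : ℕ → K} {s : Finset ℕ} (hz : ∀ p ∈ s, z p ^ n = 1) {p : ℕ} (hp : p.Prime)
    (hps : p ∈ s) (hzp : z p ^ p = 1) (hv : v (p : K) < 1) :
    v (alt (ratio n a θ) z s - 1) < 1 := by
  refine alt_cong v hps fun S hS => ?_
  have hξ := prod_root hz hS
  set ξ := ∏ q ∈ S, z q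
  have h1 := u_div v (local_cong v hn hp hv hR hξ hzp)
  have h2 := u_div v (local_cong v hn hp hv hR (η := θ * ξ) (by rw [mul_pow, hθ, hξ, one_mul]) hzp)
  have h3 := u_mul v h1 (u_inv v h2)
  convert h3 using 3
  rw [ratio, ratio, mul_comm (z p) ξ, ← mul_assoc]
  simp only [div_eq_mul_inv, mul_inv, inv_inv]
  ring

lemma two_adic (v : Valuation K Γ) (hv : v 2 < 1) {u : ℕ} (hu : Odd u) {a : ℕ → ℤ}
    (ha : ∀ j, Odd (a j)) (hR : RP (4 * u ^ 2) a) {ι : K} (hι : ι ^ 2 = -1) {ξ : K}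
    (hξ : ξ ^ (4 * u ^ 2) = 1) (h1 : ξ = 1 ∨ ξ ^ 4 ≠ 1) :
    ∃ δ c : K, Q v (-2) (ratio (4 * u ^ 2) a (-1) ξ) δ ∧
      Q v (ι - 1) (ratio (4 * u ^ 2) a ι ξ) (δ - c) ∧ (ξ = 1 → v c = 1) ∧ (ξ ^ 4 ≠ 1 → c = 0) := by
  have hu0 : u ≠ 0 := hu.pos.ne'
  have hn : 4 * u ^ 2 ≠ 0 := by positivity
  have h20 : v 2 ≠ 0 := (v.ne_zero_iff).mpr two_ne_zero
  have hvu : v (u : K) = 1 :=
    v_coprime v (p := 2) (by simpa using hv) ((Nat.coprime_two_left).mpr hu)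
  have hvξ : v ξ = 1 := v_root v hn hξ
  obtain ⟨κ, hκ1, hκ2, hκ3, hκ4⟩ : ∃ κ : K, v κ ≤ 1 ∧ (ξ = 1 → κ = 1) ∧ (ξ ^ 4 ≠ 1 → κ = 0) ∧
      ∀ r, v ((∑ i ∈ range (u ^ 2), (a (i * 4 + r) : K) * (ξ ^ 4) ^ i) * ξ ^ r - κ) ≤ v 2 := by
    rcases h1 with rfl | h1
    · refine ⟨1, by simp, fun _ => rfl, fun h => absurd (one_pow 4) h, fun r => ?_⟩
      have e1 := v_sub_geom v (u ^ 2) (fun i => a (i * 4 + r)) (fun i => ha _) (x := (1 : K) ^ 4)
        (by simp)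
      have e2 := v_even v (m := (u : ℤ) ^ 2 - 1)
        (((hu.natCast (R := ℤ)).pow (n := 2)).sub_odd odd_one)
      have e3 := v.map_add_le e1 e2
      convert e3 using 2
      simp
    · refine ⟨0, by simp, fun h => absurd (by rw [h, one_pow]) h1, fun _ => rfl, fun r => ?_⟩
      have e1 := v_ev_le_of_ne v (n := u ^ 2) (by positivity) (fun i => a (i * 4 + r))
        (fun i => ha _) (x := ξ ^ 4) (by rw [← pow_mul, hξ]) h1
      rw [sub_zero, map_mul, map_pow, hvξ, one_pow, mul_one]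
      exact e1
  obtain ⟨k, hk1, hk2⟩ : ∃ k : ℕ → K, (∀ r, v (k r) ≤ 1) ∧ ∀ r,
      (∑ i ∈ range (u ^ 2), (a (i * 4 + r) : K) * (ξ ^ 4) ^ i) * ξ ^ r = κ + 2 * k r := by
    refine ⟨fun r => ((∑ i ∈ range (u ^ 2), (a (i * 4 + r) : K) * (ξ ^ 4) ^ i) * ξ ^ r - κ) / 2,
      fun r => ?_, fun r => by ring⟩
    rw [map_div₀]
    exact div_le_one_of_le₀ (hκ4 r) zero_le
  have hE : ∀ θ : K, θ ^ 4 = 1 → ev (4 * u ^ 2) a (θ * ξ) = (κ + 2 * k 0) + (κ + 2 * k 1) * θ +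
      (κ + 2 * k 2) * θ ^ 2 + (κ + 2 * k 3) * θ ^ 3 := by
    intro θ hθ
    rw [mul_comm 4, ev_split, mul_pow, hθ, one_mul]
    simp only [Finset.sum_range_succ, Finset.sum_range_zero, ← hk2]
    ring
  obtain ⟨A, hA⟩ : ∃ A : K, A = 2 * κ + k 0 + k 1 + k 2 + k 3 := ⟨_, rfl⟩
  have hE1 : ev (4 * u ^ 2) a ξ = 2 * A := by
    have := hE 1 (one_pow 4)
    rw [one_mul] at this
    rw [this, hA]
    ring
  have hvA : v A = 1 := by
    have := v_ev_eq v hu0 hvu ha hR hξ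
    rw [hE1, map_mul] at this
    exact mul_left_cancel₀ h20 (this.trans (mul_one _).symm)
  have hA0 : A ≠ 0 := (v.ne_zero_iff).mp (hvA ▸ one_ne_zero)
  have hι4 : ι ^ 4 = 1 := by rw [show 4 = 2 * 2 from rfl, pow_mul, hι]; simp
  have hι1 : v (ι - 1) < 1 := (ramified v hv (k := 1) (by simpa using hι)).1
  have hι2 : v (ι + 1) < 1 := by
    have := v.map_add_lt hι1 hv
    rwa [show ι - 1 + 2 = ι + 1 by ring] at this
  have hι0 : ι - 1 ≠ 0 := by
    intro h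
    rw [sub_eq_zero.mp h] at hι
    norm_num at hι
  refine ⟨(κ + k 1 + k 3) / A, κ / A, ⟨?_, ?_⟩, ⟨?_, ?_⟩, fun h => ?_, fun h => ?_⟩
  · rw [map_div₀, hvA, div_one]
    exact v.map_add_le (v.map_add_le hκ1 (hk1 1)) (hk1 3)
  · have : ratio (4 * u ^ 2) a (-1) ξ - 1 - -2 * ((κ + k 1 + k 3) / A) = 0 := by
      rw [ratio, hE1, hE (-1) (by norm_num)]
      field_simp
      rw [hA]
      ring
    rw [this, map_zero, Valuation.map_neg]
    exact zero_lt_iff.mpr h20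
  · rw [← sub_div, map_div₀, hvA, div_one, show κ + k 1 + k 3 - κ = k 1 + k 3 by ring]
    exact v.map_add_le (hk1 1) (hk1 3)
  · have : ratio (4 * u ^ 2) a ι ξ - 1 - (ι - 1) * ((κ + k 1 + k 3) / A - κ / A) =
        (ι - 1) * (((ι + 1) * (κ + k 2) + (ι - 1) * k 3) / A) := by
      rw [ratio, hE1, hE ι hι4]
      field_simp
      rw [hA]
      linear_combination (κ * ι - κ + 2 * k 3 * ι - 2 * k 3) * hι
    rw [this, map_mul]
    refine mul_lt_of_lt_one_right (zero_lt_iff.mpr ((v.ne_zero_iff).mpr hι0)) ?_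
    rw [map_div₀, hvA, div_one]
    refine v.map_add_lt ?_ ?_
    · rw [map_mul]
      exact (mul_le_of_le_one_right' (v.map_add_le hκ1 (hk1 2))).trans_lt hι2
    · rw [map_mul]
      exact (mul_le_of_le_one_right' (hk1 3)).trans_lt hι1
  · rw [hκ2 h, map_div₀, hvA, map_one, div_one]
  · rw [hκ3 h, zero_div]

omit [CharZero K] in
lemma prod_pow_four_ne {z : ℕ → K} {S : Finset ℕ} (hS : S.Nonempty)
    (hz : ∀ p ∈ S, p.Prime ∧ Odd p ∧ IsPrimitiveRoot (z p) p) : (∏ q ∈ S, z q) ^ 4 ≠ 1 := by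
  intro h
  obtain ⟨q, hq⟩ := hS
  obtain ⟨hq1, hq2, hq3⟩ := hz q hq
  have h1 : (∏ p ∈ S.erase q, z p) ^ (∏ p ∈ S.erase q, p) = 1 := by
    rw [← Finset.prod_pow]
    refine Finset.prod_eq_one fun p hp => ?_
    exact ((hz p (Finset.mem_of_mem_erase hp)).2.2.pow_eq_one_iff_dvd _).mpr
      (Finset.dvd_prod_of_mem _ hp)
  have h2 : z q ^ (4 * ∏ p ∈ S.erase q, p) = 1 := by
    have := congrArg (· ^ (∏ p ∈ S.erase q, p)) h
    simp only [one_pow] at this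
    rw [← Finset.mul_prod_erase S z hq, mul_pow, mul_pow, ← pow_mul, ← pow_mul,
      mul_comm 4, pow_mul (∏ p ∈ S.erase q, z p), h1, one_pow, mul_one, mul_comm] at this
    exact this
  rcases (Nat.Prime.dvd_mul hq1).mp ((hq3.pow_eq_one_iff_dvd _).mp h2) with h3 | h3
  · have h4 : q ∣ 2 := hq1.dvd_of_dvd_pow (show q ∣ 2 ^ 2 from h3)
    rw [(Nat.prime_dvd_prime_iff_eq hq1 Nat.prime_two).mp h4] at hq2
    exact absurd hq2 (by decide)
  · obtain ⟨p, hp, hqp⟩ := (Prime.dvd_finsetProd_iff hq1.prime _).mp h3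
    exact Finset.ne_of_mem_erase hp
      ((Nat.prime_dvd_prime_iff_eq hq1 (hz p (Finset.mem_of_mem_erase hp)).1).mp hqp).symm

end

lemma alt_eq_one {K : Type} [Field K] [NumberField K] {u : ℕ} (hu : Odd u) (hu1 : u ≠ 1)
    {a : ℕ → ℤ} (ha : ∀ j, Odd (a j)) (hR : RP (4 * u ^ 2) a) {θ : K} (hθ : θ ^ (4 * u ^ 2) = 1)
    {z : ℕ → K} (hz : ∀ p ∈ u.primeFactors, z p ^ p = 1) (V : ValuationSubring K)
    (hV : V.valuation 2 < 1)
    (hV' : V.valuation (alt (ratio (4 * u ^ 2) a θ) z u.primeFactors - 1) < 1) :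
    alt (ratio (4 * u ^ 2) a θ) z u.primeFactors = 1 := by
  have hu0 : u ≠ 0 := hu.pos.ne'
  have hn : 4 * u ^ 2 ≠ 0 := by positivity
  have hz' : ∀ p ∈ u.primeFactors, z p ^ (4 * u ^ 2) = 1 := by
    intro p hp
    obtain ⟨c, hc⟩ := Nat.dvd_of_mem_primeFactors hp
    rw [show 4 * u ^ 2 = p * (4 * c * u) by rw [sq]; nth_rw 1 [hc]; ring, pow_mul, hz p hp,
      one_pow]
  have hcong : ∀ W : ValuationSubring K, ∀ p ∈ u.primeFactors, W.valuation (p : K) < 1 →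
      W.valuation (alt (ratio (4 * u ^ 2) a θ) z u.primeFactors - 1) < 1 := fun W p hp hW =>
    alt_ratio_cong _ hn hR hθ hz' (Nat.prime_of_mem_primeFactors hp) hp (hz p hp) hW
  have hint : IsIntegral ℤ (alt (ratio (4 * u ^ 2) a θ) z u.primeFactors) := by
    refine integral_of_val fun W => le_of_eq ?_
    by_cases h : ∃ p ∈ u.primeFactors, W.valuation (p : K) < 1
    · obtain ⟨p, hp, hW⟩ := h
      exact u_val _ (hcong W p hp hW)
    · have hvu := v_of_primes W.valuation hu0 fun p hp hW => h ⟨p, hp, hW⟩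
      refine alt_val _ fun S hS => ?_
      have hξ := prod_root hz' hS
      rw [ratio, map_div₀, v_ev_eq _ hu0 hvu ha hR hξ,
        v_ev_eq _ hu0 hvu ha hR (by rw [mul_pow, hθ, hξ, one_mul]), div_self]
      exact (W.valuation.ne_zero_iff).mpr two_ne_zero
  have hnorm : ∀ φ : K →+* ℂ, ‖φ (alt (ratio (4 * u ^ 2) a θ) z u.primeFactors)‖ = 1 := by
    intro φ
    rw [alt, map_prod, norm_prod]
    refine Finset.prod_eq_one fun S hS => ?_
    have hξ := prod_root hz' (Finset.mem_powerset.mp hS)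
    rw [map_zpow₀, norm_zpow, ratio, map_div₀, norm_div, map_ev, map_ev,
      norm_ev hn hR (by rw [← map_pow, mul_pow, hθ, hξ, one_mul, map_one]),
      norm_ev hn hR (by rw [← map_pow, hξ, map_one]), div_self, one_zpow]
    positivity
  obtain ⟨N, hN, hρ⟩ := NumberField.Embeddings.pow_eq_one_of_norm_eq_one K ℂ hint hnorm
  obtain ⟨e, b, hb, rfl⟩ := Nat.exists_eq_two_pow_mul_odd hN.ne'
  rw [pow_mul] at hρ
  have h1 := eq_one_of_root V.valuation hρ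
    (v_coprime _ (p := 2) (by simpa using hV) ((Nat.coprime_two_left).mpr hb))
    (v_pow_sub_one _ hV' _)
  obtain ⟨p, hp, hpu⟩ := Nat.exists_prime_and_dvd hu1
  obtain ⟨W, hW⟩ := exists_val K hp
  refine eq_one_of_root W.valuation h1 (v_coprime _ hW (Nat.Coprime.pow_right _ ?_))
    (hcong W p (Nat.mem_primeFactors.mpr ⟨hp, hpu, hu0⟩) hW)
  exact (Nat.coprime_two_right).mpr (hu.of_dvd_nat hpu)

lemma exists_field {n : ℕ} (hn : n ≠ 0) :
    ∃ (K : Type) (_ : Field K) (_ : NumberField K) (ζ : K), IsPrimitiveRoot ζ n := by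
  have : NeZero n := ⟨hn⟩
  have : NeZero (n : ℚ) := ⟨Nat.cast_ne_zero.mpr hn⟩
  have h := CyclotomicField.isCyclotomicExtension n ℚ
  obtain ⟨ζ, hζ⟩ := h.exists_isPrimitiveRoot (Set.mem_singleton n) hn
  exact ⟨CyclotomicField n ℚ, inferInstance, inferInstance, ζ, hζ⟩

theorem no_odd_part {u : ℕ} (hu : Odd u) {a : ℕ → ℤ} (ha : ∀ j, Odd (a j))
    (hR : RP (4 * u ^ 2) a) : u = 1 := by
  classical
  by_contra hu1
  have hu0 : u ≠ 0 := hu.pos.ne'
  have hn : 4 * u ^ 2 ≠ 0 := by positivity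
  obtain ⟨K, _, _, ζ, hζ⟩ := exists_field hn
  let z : ℕ → K := fun p => ζ ^ (4 * u ^ 2 / p)
  have hz : ∀ p ∈ u.primeFactors, p.Prime ∧ Odd p ∧ IsPrimitiveRoot (z p) p := by
    intro p hp
    have h1 := Nat.dvd_of_mem_primeFactors hp
    refine ⟨Nat.prime_of_mem_primeFactors hp, hu.of_dvd_nat h1,
      hζ.pow (Nat.pos_of_ne_zero hn) (Nat.div_mul_cancel ?_).symm⟩
    exact (h1.trans (dvd_pow_self u two_ne_zero)).mul_left 4
  have hz1 : ∀ p ∈ u.primeFactors, z p ^ p = 1 := fun p hp => (hz p hp).2.2.pow_eq_one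
  have hz2 : ∀ p ∈ u.primeFactors, z p ^ (4 * u ^ 2) = 1 := by
    intro p _
    simp only [z]
    rw [← pow_mul, mul_comm, pow_mul, hζ.pow_eq_one, one_pow]
  obtain ⟨ι, hι⟩ : ∃ ι : K, ι ^ 2 = -1 := by
    refine ⟨ζ ^ (u ^ 2), IsPrimitiveRoot.eq_neg_one_of_two_right ?_⟩
    rw [← pow_mul]
    exact hζ.pow (Nat.pos_of_ne_zero hn) (by ring)
  obtain ⟨V, hV⟩ := exists_val K Nat.prime_two
  have hV' : V.valuation 2 < 1 := by simpa using hV
  have h2 : ∀ S : Finset ℕ, ∃ δ c : K, S ⊆ u.primeFactors →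
      Q V.valuation (-2) (ratio (4 * u ^ 2) a (-1) (∏ q ∈ S, z q)) δ ∧
      Q V.valuation (ι - 1) (ratio (4 * u ^ 2) a ι (∏ q ∈ S, z q)) (δ - c) ∧
      (S = ∅ → V.valuation c = 1) ∧ (S ≠ ∅ → c = 0) := by
    intro S
    by_cases hS : S ⊆ u.primeFactors
    · have h3 : S ≠ ∅ → (∏ q ∈ S, z q) ^ 4 ≠ 1 := fun h =>
        prod_pow_four_ne (Finset.nonempty_iff_ne_empty.mpr h) fun p hp => hz p (hS hp)
      have h4 : S = ∅ → ∏ q ∈ S, z q = 1 := fun h => by rw [h, Finset.prod_empty]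
      obtain ⟨δ, c, e1, e2, e3, e4⟩ := two_adic V.valuation hV' hu ha hR hι (prod_root hz2 hS)
        ((eq_or_ne S ∅).imp h4 h3)
      exact ⟨δ, c, fun _ => ⟨e1, e2, fun h => e3 (h4 h), fun h => e4 (h3 h)⟩⟩
    · exact ⟨0, 0, fun h => absurd h hS⟩
  choose δ c hδ using h2
  have hm2 : V.valuation (-2) < 1 := by rwa [Valuation.map_neg]
  have hι1 : V.valuation (ι - 1) < 1 := (ramified _ hV' (k := 1) (by simpa using hι)).1
  have hι0 : ι - 1 ≠ 0 := by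
    intro h
    rw [sub_eq_zero.mp h] at hι
    norm_num at hι
  have q1 := q_alt V.valuation hm2 (by norm_num) δ fun S hS => (hδ S hS).1
  have q2 := q_alt V.valuation hι1 hι0 (fun S => δ S - c S) fun S hS => (hδ S hS).2.1
  rw [alt_eq_one hu hu1 ha hR (by rw [pow_mul]; norm_num) hz1 V hV' (q_sub _ hm2 q1)] at q1
  rw [alt_eq_one hu hu1 ha hR
    (by rw [show 4 * u ^ 2 = 2 * (2 * u ^ 2) by ring, pow_mul, hι, pow_mul]; norm_num) hz1 V hV'
    (q_sub _ hι1 q2)] at q2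
  have q3 := V.valuation.map_sub_lt (q_one _ q1) (q_one _ q2)
  rw [← Finset.sum_sub_distrib, Finset.sum_eq_single ∅] at q3
  · simp [(hδ ∅ (Finset.empty_subset _)).2.2.1 rfl] at q3
  · intro S hS hS'
    simp [(hδ S (Finset.mem_powerset.mp hS)).2.2.2 hS']
  · intro h
    exact absurd (Finset.empty_mem_powerset _) h

theorem order_eq {n : ℕ} (hn : n ≠ 0) {a : ℕ → ℤ} (ha : ∀ j, Odd (a j)) (hR : RP n a) :
    n = 1 ∨ n = 4 := by
  have h1 := hR ℤ 1 1 (one_pow n) (one_mul 1)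
  obtain ⟨m, hm⟩ : ∃ m : ℕ, n = m * m := by
    refine ⟨(ev n a (1 : ℤ)).natAbs, ?_⟩
    have := congrArg Int.natAbs h1
    rw [Int.natAbs_mul, Int.natAbs_natCast] at this
    exact this.symm
  have hm0 : m ≠ 0 := by
    rintro rfl
    exact hn hm
  obtain ⟨s, u, hu, rfl⟩ := Nat.exists_eq_two_pow_mul_odd hm0
  have h2 : n = 4 ^ s * u ^ 2 := by
    rw [hm, show (4 : ℕ) = 2 * 2 from rfl, mul_pow]
    ring
  have hs := turyn hu ha (h2 ▸ hR)
  interval_cases s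
  · left
    by_contra h3
    obtain ⟨V, hV⟩ := exists_val ℂ Nat.prime_two
    have hV' : V.valuation 2 < 1 := by simpa using hV
    obtain ⟨ζ, hζ⟩ : ∃ ζ : ℂ, IsPrimitiveRoot ζ n := ⟨_, Complex.isPrimitiveRoot_exp n hn⟩
    have h4 := v_ev_le_of_ne V.valuation hn a ha hζ.pow_eq_one (hζ.ne_one (by omega))
    have h5 := v_ev_le_of_ne V.valuation hn a ha hζ.inv.pow_eq_one (hζ.inv.ne_one (by omega))
    have h6 := congrArg V.valuation (rp_inv hn hR hζ.pow_eq_one)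
    have h7 : Odd n := by
      rw [h2]
      simpa using hu.pow
    rw [map_mul, v_coprime _ hV ((Nat.coprime_two_left).mpr h7)] at h6
    exact absurd h6 ((mul_le_of_le_one_right' (h5.trans hV'.le)).trans_lt (h4.trans_lt hV')).ne
  · right
    rw [pow_one] at h2
    rw [h2, no_odd_part hu ha (h2 ▸ hR)]
    norm_num

theorem circulant_order {n : ℕ} (hn : 1 ≤ n) (h : Fin n → ℝ) (hs : ∀ j, h j = 1 ∨ h j = -1)
    (H : Matrix (Fin n) (Fin n) ℝ) (hH : ∀ i j, H i j = h (j - i))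
    (hO : H * H.transpose = (n : ℝ) • (1 : Matrix (Fin n) (Fin n) ℝ)) : n = 1 ∨ n = 4 := by
  classical
  have : NeZero n := ⟨by omega⟩
  let g : Fin n → ℤ := fun j => if h j = 1 then 1 else -1
  have hg : ∀ j, (g j : ℝ) = h j := by
    intro j
    simp only [g]
    split_ifs with h1
    · simp [h1]
    · simp [(hs j).resolve_left h1]
  refine order_eq (a := fun j => g (Fin.ofNat n j)) (by omega) (fun j => ?_) (rp_of_auto n g ?_)
  · simp only [g]
    split_ifs <;> decide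
  · intro t
    have h1 := congrFun (congrFun hO (-t)) 0
    simp only [Matrix.mul_apply, Matrix.transpose_apply, hH, sub_neg_eq_add, sub_zero,
      Matrix.smul_apply, Matrix.one_apply, neg_eq_zero, smul_eq_mul, mul_ite, mul_one,
      mul_zero, ← hg] at h1
    exact_mod_cast h1

end Vale.Agent.P033
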